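import Vale.Agent.P153H.Main
import Vale.Agent.P153D.Bulk

open MeasureTheory Vale.Agent.P153 Vale.Agent.P153H Vale.Agent.P153D

theorem Vale.Agent.Results.P153.Arcs.result :
    (∀ (D : Finset (ℤ × ℤ)) (ξ : Cfg), Out D → (∀ x ∉ D, ξ x = 0 ∨ ξ x = -1) →
      (AdmD D ξ).Finite ∧ (AdmD D ξ).Nonempty) ∧
    ∃ (P : Measure Cfg) (σ : ℝ), IsProbabilityMeasure P ∧ IsLimD P ∧ 0 ≤ σ ∧
      Bulk σ ∧ ToGFF P σ ∧ ToGFFH P σ ∧ LogVar P σ := by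
  obtain ⟨P, hP, h⟩ := Vale.Agent.P153L.exists_lim
  obtain ⟨σ, h0, h1⟩ := main_half P (good_of_lim h)
  exact ⟨fun _ _ h1 h2 => admD_fin h1 h2, P, σ, hP, limD_of_lim h, h0,
    bulk (good_of_lim h) (limD_of_lim h) h1.1, h1⟩
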